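import Crest.Agent.N49.Sa.Ap

/-!
# Row 49 (helper72): sifting and the one-sided bilinear lemma
-/

set_option autoImplicit false
open Finset
open scoped BigOperators

namespace Crest.Agent.N49.Si

/-- a linear functional on the cube is maximal at a vertex -/
theorem vertex {α : Type*} [Fintype α] {w : α → ℝ} (h0 : ∀ x, 0 ≤ w x) (h1 : ∀ x, w x ≤ 1)
    (c : α → ℝ) : ∃ A : Finset α, ∑ x, w x * c x ≤ ∑ x ∈ A, c x := by
  classical
  refine ⟨univ.filter fun x => 0 ≤ c x, ?_⟩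
  rw [sum_filter]
  refine sum_le_sum fun x _ => ?_
  split_ifs with h
  · exact mul_le_of_le_one_left h (h1 x)
  · exact mul_nonpos_of_nonneg_of_nonpos (h0 x) (not_le.1 h).le

theorem one_sub_pow_le (j n : ℕ) : (1 - 1 / 2 ^ j : ℝ) ^ (2 ^ j * n) ≤ 1 / 2 ^ n := by
  rw [pow_mul, ← one_div_pow 2 n]
  have h0 : (0 : ℝ) ≤ 1 - 1 / 2 ^ j := sub_nonneg.2 (div_le_one_of_le₀ (one_le_pow₀ one_le_two)
    (by positivity))
  refine pow_le_pow_left₀ (by positivity) ((pow_le_pow_left₀ h0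
    (Real.one_sub_le_exp_neg _) _).trans ?_) n
  rw [← Real.exp_nat_mul]
  push_cast
  rw [mul_neg, mul_one_div_cancel (by positivity), Real.exp_neg, one_div]
  exact inv_anti₀ two_pos (by linarith [Real.add_one_le_exp 1])

variable {G : Type*} [AddCommGroup G] [Fintype G]

/-- **sifting**: a test function that is positive against `(a ∘ g)^p` is positive on a rectangle -/
theorem sift {a g : G → ℝ} (a0 : ∀ x, 0 ≤ a x) (a1 : ∀ x, a x ≤ 1) (g0 : ∀ x, 0 ≤ g x)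
    (g1 : ∀ x, g x ≤ 1) (p : ℕ) (c : G → ℝ) : ∃ A B : Finset G,
      Fintype.card G * ∑ y, (∑ x, a x * g (x + y)) ^ p * c y ≤
        Fintype.card G ^ p * ∑ z ∈ B, ∑ x ∈ A, c (z - x) := by
  classical
  set F : (Fin p → G) → ℝ := fun s =>
    ∑ x, (∏ l, a (x + s l)) * ∑ z, (∏ l, g (z + s l)) * c (z - x) with hF
  have e : ∑ s, F s = Fintype.card G * ∑ y, (∑ x, a x * g (x + y)) ^ p * c y := by
    rw [hF, sum_comm, ← nsmul_eq_mul, ← card_univ, ← sum_const]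
    refine sum_congr rfl fun x _ => ?_
    simp only [mul_sum]
    rw [sum_comm, ← Equiv.sum_comp (Equiv.addLeft x)]
    refine sum_congr rfl fun y _ => ?_
    rw [← Equiv.sum_comp (Equiv.addLeft x) fun u => a u * g (u + y), Fintype.sum_pow, sum_mul]
    refine sum_congr rfl fun s _ => ?_
    simp only [Equiv.coe_addLeft, add_sub_cancel_left, prod_mul_distrib, add_right_comm x y,
      mul_assoc]
  obtain ⟨s, hs⟩ := Finite.exists_max F
  obtain ⟨A, hA⟩ := vertex (w := fun x => ∏ l, a (x + s l)) (fun x => prod_nonneg fun _ _ => a0 _)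
    (fun x => prod_le_one (fun _ _ => a0 _) fun _ _ => a1 _)
    fun x => ∑ z, (∏ l, g (z + s l)) * c (z - x)
  obtain ⟨B, hB⟩ := vertex (w := fun x => ∏ l, g (x + s l)) (fun x => prod_nonneg fun _ _ => g0 _)
    (fun x => prod_le_one (fun _ _ => g0 _) fun _ _ => g1 _) fun z => ∑ x ∈ A, c (z - x)
  refine ⟨A, B, e ▸ (sum_le_card_nsmul _ _ _ fun t _ => hs t).trans ?_⟩
  rw [card_univ, Fintype.card_fun, Fintype.card_fin, nsmul_eq_mul, Nat.cast_pow]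
  refine mul_le_mul_of_nonneg_left (hA.trans (le_trans (le_of_eq ?_) hB)) (by positivity)
  rw [sum_comm]
  simp only [mul_sum]

theorem rect {φ a g b f : G → ℝ} (a0 : ∀ x, 0 ≤ a x) (a1 : ∀ x, a x ≤ 1) (g0 : ∀ x, 0 ≤ g x)
    (g1 : ∀ x, g x ≤ 1) (hφ : ∀ y, φ y = ∑ x, a x * g (x + y)) (b0 : ∀ x, 0 ≤ b x)
    (b1 : ∀ x, b x ≤ 1) {K L e θ n : ℝ} {p : ℕ} (hn : n = Fintype.card G) (e0 : 0 < e) (K0 : 0 < K)
    (k1 : (1 - e) ^ p ≤ e / (2 * K)) (hb : n ≤ K * ∑ y, b y) (hθ : n ≤ L * θ) (θ0 : 0 < θ)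
    (h : θ * ∑ y, b y ≤ ∑ y, b y * φ y) (f1 : ∀ y, f y ≤ 1)
    (hf : ∀ y, f y = 1 ∨ (f y = 0 ∧ φ y ≤ (1 - e) * θ)) :
    ∃ A B : Finset G, n * n ≤ K * (2 * L ^ p) * (#A * #B) ∧
      (1 - e) * (#A * #B) ≤ ∑ z ∈ B, ∑ x ∈ A, f (z - x) := by
  have n0 : 0 < n := by rw [hn]; exact_mod_cast Fintype.card_pos
  obtain ⟨β, hβ⟩ : ∃ β, β = ∑ y, b y := ⟨_, rfl⟩
  rw [← hβ] at hb h
  have β0 : 0 < β := pos_of_mul_pos_right (n0.trans_le hb) K0.le
  have φ0 : ∀ y, 0 ≤ φ y := fun y => hφ y ▸ sum_nonneg fun x _ => mul_nonneg (a0 x) (g0 _)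
  have p0 := pow_pos θ0 p
  have j1 : θ ≤ ∑ y, b y / β * φ y := by
    simp only [div_mul_eq_mul_div, ← sum_div]
    rwa [le_div_iff₀ β0]
  have j2 : β * θ ^ p ≤ ∑ y, φ y ^ p := by
    have := (pow_le_pow_left₀ θ0.le j1 p).trans (Real.pow_arith_mean_le_arith_mean_pow univ
      (fun y => b y / β) φ (fun y _ => div_nonneg (b0 y) β0.le)
      (by rw [← sum_div, ← hβ, div_self β0.ne']) (fun y _ => φ0 y) p)
    refine (mul_le_mul_of_nonneg_left this β0.le).trans ?_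
    rw [mul_sum]
    refine sum_le_sum fun y _ => ?_
    rw [← mul_assoc, mul_div_cancel₀ _ β0.ne']
    exact mul_le_of_le_one_left (pow_nonneg (φ0 y) p) (b1 y)
  obtain ⟨A, B, hAB⟩ := sift a0 a1 g0 g1 p fun y => f y - (1 - e)
  simp only [← hφ, ← hn] at hAB
  have j3 : e * β / 2 * θ ^ p ≤ ∑ y, φ y ^ p * (f y - (1 - e)) := by
    have k0 : 0 ≤ e / (2 * K) * θ ^ p := by positivity
    have k2 : ∀ y, e * φ y ^ p - e / (2 * K) * θ ^ p ≤ φ y ^ p * (f y - (1 - e)) := fun y => by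
      rcases hf y with hy | ⟨hy, hy'⟩ <;> rw [hy]
      · linarith
      · have := (pow_le_pow_left₀ (φ0 y) hy' p).trans
          ((mul_pow _ _ _).trans_le (mul_le_mul_of_nonneg_right k1 p0.le))
        linarith
    refine le_trans ?_ (sum_le_sum fun y _ => k2 y)
    rw [sum_sub_distrib, ← mul_sum, sum_const, card_univ, nsmul_eq_mul, ← hn]
    have k3 : n * (e / (2 * K) * θ ^ p) ≤ e * β / 2 * θ ^ p := by
      rw [← mul_assoc]
      refine mul_le_mul_of_nonneg_right ?_ p0.le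
      rw [← mul_div_assoc, div_le_div_iff₀ (by positivity) two_pos]
      linarith [mul_le_mul_of_nonneg_left hb e0.le]
    linarith [mul_le_mul_of_nonneg_left j2 e0.le]
  obtain ⟨R, hR⟩ : ∃ R, R = ∑ z ∈ B, ∑ x ∈ A, f (z - x) := ⟨_, rfl⟩
  have r0 : ∑ z ∈ B, ∑ x ∈ A, (f (z - x) - (1 - e)) = R - (1 - e) * (#A * #B) := by
    simp only [sum_sub_distrib, sum_const, nsmul_eq_mul, hR]; ring
  have r1 : R ≤ #A * #B := hR ▸ (sum_le_card_nsmul _ _ (#A : ℝ) fun z _ =>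
    (sum_le_card_nsmul _ _ 1 fun x _ => f1 _).trans (by simp)).trans (by simp [mul_comm])
  rw [r0] at hAB
  replace hAB := (mul_le_mul_of_nonneg_left j3 n0.le).trans hAB
  have r2 : (1 - e) * (#A * #B) < R := sub_pos.1 (pos_of_mul_pos_right
    (lt_of_lt_of_le (by positivity) hAB) (by positivity))
  refine ⟨A, B, ?_, hR ▸ r2.le⟩
  have k2 : n ^ p ≤ L ^ p * θ ^ p := (pow_le_pow_left₀ n0.le hθ p).trans_eq (mul_pow ..)
  have k3 : n * (e * β / 2 * θ ^ p) ≤ L ^ p * θ ^ p * (e * (#A * #B)) :=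
    hAB.trans (mul_le_mul k2 (by linarith) (by linarith) ((pow_pos n0 p).le.trans k2))
  have k4 : n * β ≤ 2 * L ^ p * (#A * #B) := le_of_mul_le_mul_right (by linarith)
    (mul_pos e0 p0)
  linarith [mul_le_mul_of_nonneg_left k4 K0.le, mul_le_mul_of_nonneg_left hb n0.le]

theorem shift {φ a g f ν : G → ℝ} (a0 : ∀ x, 0 ≤ a x) (hφ : ∀ y, φ y = ∑ x, a x * g (x + y))
    (ν0 : ∀ u, 0 ≤ ν u) {A B : Finset G} {c d : ℝ} (c0 : 0 ≤ c) (hf : ∀ y, c * f y ≤ φ y)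
    (t0 : ∀ u, ν u ≠ 0 → d * (#A * #B) ≤ ∑ x ∈ A, ∑ z ∈ B, f (u - x + z)) :
    ∃ t, c * (d * (#A * #B)) * ∑ u, ν u ≤ #A * #B * ((∑ x, a x) * ∑ u, ν u * g (t + u)) := by
  obtain ⟨t, ht⟩ := Finite.exists_max fun t => ∑ u, ν u * g (t + u)
  refine ⟨t, ?_⟩
  have t1 : ∀ v, ∑ u, ν u * φ (u + v) ≤ (∑ x, a x) * ∑ u, ν u * g (t + u) := fun v => by
    simp only [hφ]
    rw [sum_mul]
    simp only [mul_sum univ _ (ν _)]
    rw [sum_comm]
    refine sum_le_sum fun x _ => le_trans (le_of_eq ?_)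
      (mul_le_mul_of_nonneg_left (ht (x + v)) (a0 x))
    rw [mul_sum]
    exact sum_congr rfl fun u _ => by rw [add_assoc, add_comm v]; ring
  calc _ ≤ ∑ u, ∑ x ∈ A, ∑ z ∈ B, ν u * φ (u + (z - x)) := by
        rw [mul_sum]
        refine sum_le_sum fun u _ => ?_
        by_cases hu : ν u = 0
        · simp [hu]
        simp only [← mul_sum]
        rw [mul_comm]
        refine mul_le_mul_of_nonneg_left ((mul_le_mul_of_nonneg_left (t0 u hu) c0).trans ?_) (ν0 u)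
        simp only [mul_sum]
        exact sum_le_sum fun x _ => sum_le_sum fun z _ => by
          rw [show u + (z - x) = u - x + z by abel]; exact hf _
    _ ≤ _ := by
        rw [sum_comm, mul_assoc, ← nsmul_eq_mul]
        refine sum_le_card_nsmul _ _ _ fun x _ => ?_
        rw [sum_comm, ← nsmul_eq_mul]
        exact sum_le_card_nsmul _ _ _ fun z _ => t1 _

/-- the exponent in the bilinear lemma -/
def blM (m j : ℕ) : ℕ := 3 * m * (2 ^ (j + 2) * (m + j + 3)) + m + 1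

/-- **one-sided bilinear lemma**: a rectangle on which `g` is large gives a Bohr set of small rank
on a translate of which `g` is large -/
theorem bl {g a b : G → ℝ} {m : ℕ} (j : ℕ) (g0 : ∀ x, 0 ≤ g x) (g1 : ∀ x, g x ≤ 2 ^ m)
    (a0 : ∀ x, 0 ≤ a x) (a1 : ∀ x, a x ≤ 1) (b0 : ∀ x, 0 ≤ b x) (b1 : ∀ x, b x ≤ 1) {γ : ℝ}
    (hγ : 1 ≤ 2 ^ m * γ) (ha : 1 ≤ 2 ^ m * 𝔼 x, a x) (hb : 1 ≤ 2 ^ m * 𝔼 x, b x)
    (h : γ * (𝔼 x, a x) * (𝔼 x, b x) ≤ 𝔼 x, 𝔼 y, a x * b y * g (x + y)) :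
    ∃ Λ : Finset (AddChar G ℂ), #Λ ≤ 2 ^ 14 * (blM m j + j + 5) ^ 4 * 4 ^ (j + 2) ∧
      ∀ ν : G → ℝ, (∀ u, 0 ≤ ν u) →
        (∀ u, ν u ≠ 0 → ∑ ψ ∈ Λ, ‖ψ u - 1‖ ≤ 1 / 2 ^ (blM m j + j + 3)) →
        ∃ t, (1 - 1 / 2 ^ j) * γ * ∑ u, ν u ≤ ∑ u, ν u * g (t + u) := by
  classical
  simp only [Fintype.expect_eq_sum_div_card] at ha hb h
  obtain ⟨n, hn⟩ : ∃ n : ℝ, n = Fintype.card G := ⟨_, rfl⟩
  obtain ⟨α, hα⟩ : ∃ α, α = ∑ y, a y := ⟨_, rfl⟩
  obtain ⟨K, hK⟩ : ∃ K : ℝ, K = 2 ^ m := ⟨_, rfl⟩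
  obtain ⟨e, he⟩ : ∃ e : ℝ, e = 1 / 2 ^ (j + 2) := ⟨_, rfl⟩
  have n0 : 0 < n := by rw [hn]; exact_mod_cast Fintype.card_pos
  have K0 : 0 < K := by rw [hK]; positivity
  have e0 : 0 < e := by rw [he]; positivity
  have e4 : (1 : ℝ) / 2 ^ j = 4 * e := by rw [he, pow_add]; field_simp; norm_num
  have e1 : 4 * e ≤ 1 := e4 ▸ div_le_one_of_le₀ (one_le_pow₀ one_le_two) (by positivity)
  have k1 : (1 - e) ^ (2 ^ (j + 2) * (m + j + 3)) ≤ e / (2 * K) := by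
    rw [he, hK]
    exact (one_sub_pow_le (j + 2) (m + j + 3)).trans (le_of_eq (by field_simp; ring))
  have k5 : K * (2 * (K ^ 3) ^ (2 ^ (j + 2) * (m + j + 3))) = 2 ^ blM m j := by
    rw [blM, hK, ← pow_mul, ← pow_mul]; ring
  rw [← hK] at g1 hγ ha hb
  rw [← hn] at ha hb h
  rw [← hα] at ha h
  have γ0 : 0 < γ := pos_of_mul_pos_right (one_pos.trans_le hγ) K0.le
  rw [← mul_div_assoc, le_div_iff₀ n0, one_mul] at ha hb
  have α0 : 0 < α := pos_of_mul_pos_right (n0.trans_le ha) K0.le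
  obtain ⟨φ, hφ⟩ : ∃ φ : G → ℝ, ∀ y, φ y = ∑ x, a x * (g (x + y) / K) := ⟨_, fun _ => rfl⟩
  obtain ⟨f, hf⟩ : ∃ f : G → ℝ, ∀ y, f y = if (1 - e) * (γ * α / K) ≤ φ y then 1 else 0 :=
    ⟨_, fun _ => rfl⟩
  have f0 : ∀ y, 0 ≤ f y := fun y => by rw [hf]; split_ifs <;> norm_num
  have f1 : ∀ y, f y ≤ 1 := fun y => by rw [hf]; split_ifs <;> norm_num
  have f2 : ∀ y, (1 - e) * (γ * α / K) * f y ≤ φ y := fun y => by
    rw [hf]; split_ifs with hy
    · rwa [mul_one]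
    · rw [mul_zero, hφ]
      exact sum_nonneg fun x _ => mul_nonneg (a0 x) (div_nonneg (g0 _) K0.le)
  obtain ⟨A, B, r3, r2⟩ := rect (g := fun x => g x / K) (L := K ^ 3) (θ := γ * α / K) a0 a1
    (fun x => div_nonneg (g0 x) K0.le) (fun x => div_le_one_of_le₀ (g1 x) K0.le) hφ b0 b1 hn e0 K0
    k1 hb (by
      rw [show K ^ 3 * (γ * α / K) = K * γ * (K * α) by field_simp]
      exact ha.trans (le_mul_of_one_le_left (n0.le.trans ha) hγ)) (by positivity) (by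
      rw [← sum_div, div_div, mul_assoc, div_mul_div_comm, ← mul_div_assoc,
        div_le_div_iff_of_pos_right (by positivity), sum_comm, ← mul_assoc] at h
      rw [div_mul_eq_mul_div]
      refine (div_le_div_of_nonneg_right h K0.le).trans (le_of_eq ?_)
      rw [sum_div]
      refine sum_congr rfl fun y _ => ?_
      rw [hφ, mul_sum, sum_div]
      exact sum_congr rfl fun x _ => by ring) f1 fun y => by
      rw [hf]; split_ifs with hy
      · exact Or.inl rfl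
      · exact Or.inr ⟨rfl, (not_le.1 hy).le⟩
  rw [k5] at r3
  have cA : (#A : ℝ) ≤ n := by rw [hn]; exact_mod_cast card_le_univ A
  have cB : (#B : ℝ) ≤ n := by rw [hn]; exact_mod_cast card_le_univ B
  have M0 : (0 : ℝ) < 2 ^ blM m j := by positivity
  have dA : n ≤ 2 ^ blM m j * #A := le_of_mul_le_mul_right (r3.trans (by
    rw [mul_assoc]; gcongr)) n0
  have dB : n ≤ 2 ^ blM m j * #B := le_of_mul_le_mul_right (r3.trans (by
    rw [mul_assoc, mul_comm (#A : ℝ)]; gcongr)) n0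
  have A0 : (0 : ℝ) < #A := pos_of_mul_pos_right (n0.trans_le dA) M0.le
  have B0 : (0 : ℝ) < #B := pos_of_mul_pos_right (n0.trans_le dB) M0.le
  obtain ⟨Λ, hΛ, hper⟩ := Sa.almost_period (A := B) (B := A) f0 f1 (m := blM m j)
    (by rw [hn] at dB; exact_mod_cast dB) (by rw [hn] at dA; exact_mod_cast dA) (j + 2)
  refine ⟨Λ, hΛ, fun ν ν0 hν => ?_⟩
  have eT : ∀ u, Sa.T B A f u = (∑ x ∈ A, ∑ z ∈ B, f (u - x + z)) / (#A * #B) := fun u => by
    simp only [Sa.T, expect_eq_sum_div_card, ← sum_div, div_div, mul_comm (#B : ℝ)]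
  obtain ⟨t, ht⟩ := shift (g := fun x => g x / K) (A := A) (B := B) (d := 1 - 2 * e) a0 hφ ν0
    (mul_nonneg (by linarith) (by positivity)) f2 fun u hu => by
    have k1 := (abs_le.1 (hper u (hν u hu) 0)).1
    have k2 : 1 - e ≤ Sa.T B A f 0 := by
      rw [eT, le_div_iff₀ (by positivity), sum_comm]
      simpa only [zero_sub, neg_add_eq_sub] using r2
    rw [zero_add, eT u, ← he] at k1
    rw [← le_div_iff₀ (by positivity)]
    linarith
  refine ⟨t, ?_⟩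
  simp only [← mul_div_assoc, ← sum_div, ← hα] at ht
  have s0 : 0 ≤ ∑ u, ν u := sum_nonneg fun u _ => ν0 u
  have t3 : (1 - e) * (1 - 2 * e) * γ * ∑ u, ν u ≤ ∑ u, ν u * g (t + u) := by
    refine le_of_mul_le_mul_left (le_trans (le_of_eq ?_) (ht.trans (le_of_eq ?_)))
      (by positivity : 0 < #A * #B * (α / K)) <;> ring
  refine le_trans (mul_le_mul_of_nonneg_right (mul_le_mul_of_nonneg_right ?_ γ0.le) s0) t3
  rw [e4]; nlinarith

end Crest.Agent.N49.Si
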